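import Mathlib.LinearAlgebra.Matrix.ProjectiveSpecialLinearGroup
import Mathlib.Algebra.CharP.Defs

namespace Vale.Agent.P240.H148

/-- `L` is isomorphic to `PSL_n(F)` for some `n ≥ 2` and some finite field `F` of characteristic
`r`, where `n ≥ 3` or `|F| ≥ 4`: these are all simple groups `PSL_n(F)` in characteristic `r`. -/
def IsPSL (r : ℕ) (L : Type*) [Group L] : Prop :=
  ∃ (n : ℕ) (F : Type) (_ : Field F) (_ : Finite F), 2 ≤ n ∧ (3 ≤ n ∨ 4 ≤ Nat.card F) ∧ CharP F r ∧
    Nonempty (L ≃* Matrix.ProjectiveSpecialLinearGroup (Fin n) F)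

end Vale.Agent.P240.H148
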