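import Vale.Agent.P240.Bdl.B1

/-!
The `FreeSub` alternative at the prime `l` of the `l`-adic criterion, and the two-prime form.
-/

namespace Vale.Agent.P240.H148

open Subgroup Vale.Agent.P240.K

section
variable {G : Type*} [Group G] {p : ℕ}

lemma elemAb_cj {E : Subgroup G} (hE : ElemAb p E) (g : G) : ElemAb p (cj g E) :=
  cj_mem_ApS.2 (show E ∈ ApS p G from hE)

lemma free_index {l : ℕ} [hl : Fact l.Prime] [Finite G] {L : Subgroup G} (hF : FreeSub p l L)
    {E : Subgroup G} (hE : ElemAb p E) (hEN : E ≤ normalizer (L : Set G))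
    (hEC : ¬ E ≤ centralizer (L : Set G)) :
    l ∣ (L ⊓ centralizer (E : Set G)).relIndex L := by
  obtain ⟨U, hUL, hU, hfree⟩ := hF
  by_contra hd
  apply hEC
  have hU' : IsPGroup l (U.subgroupOf L) := hU.comap_of_injective L.subtype L.subtype_injective
  obtain ⟨q, hq⟩ := hU'.nonempty_fixed_point_of_prime_not_dvd_card
    (L ⧸ (L ⊓ centralizer (E : Set G)).subgroupOf L) hd
  induction q using QuotientGroup.induction_on with
  | H g =>
  have hgL : (g : G) ∈ L := g.2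
  have hgN : (g : G) ∈ normalizer (L : Set G) := le_normalizer hgL
  have key : ∀ u ∈ U, (g : G)⁻¹ * u * g ∈ centralizer (E : Set G) := by
    intro u hu
    have h1 := hq ⟨⟨u, hUL hu⟩, hu⟩
    have h2 : (QuotientGroup.mk ((⟨u, hUL hu⟩ : L) * g) :
        L ⧸ (L ⊓ centralizer (E : Set G)).subgroupOf L) = QuotientGroup.mk g := h1
    rw [eq_comm, QuotientGroup.eq, Subgroup.mem_subgroupOf] at h2
    have h3 := h2.2
    simpa [mul_assoc] using h3
  have h1 : ElemAb p (cj (g : G) E) := elemAb_cj hE _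
  have h2 : cj (g : G) E ≤ normalizer (L : Set G) := by
    rintro _ ⟨e, he, rfl⟩
    exact mul_mem (mul_mem hgN (hEN he)) (inv_mem hgN)
  have h3 : U ≤ normalizer ((cj (g : G) E : Subgroup G) : Set G) := by
    intro u hu
    refine mem_of_comm ?_
    rintro _ ⟨e, he, rfl⟩
    have h4 := mem_centralizer_iff.1 (key u hu) e he
    change u * (g * e * (g : G)⁻¹) = g * e * (g : G)⁻¹ * u
    have h5 : u * (g * e * (g : G)⁻¹) = g * ((g : G)⁻¹ * u * g * e) * (g : G)⁻¹ := by group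
    have h6 : g * e * (g : G)⁻¹ * u = g * (e * ((g : G)⁻¹ * u * g)) * (g : G)⁻¹ := by group
    rw [h5, h6, h4]
  have h4 := hfree _ h1 h2 h3
  intro e he
  have h5 : (g : G) * e * (g : G)⁻¹ ∈ centralizer (L : Set G) := h4 ⟨e, he, rfl⟩
  rw [mem_centralizer_iff] at h5 ⊢
  intro x hx
  have h6 := h5 (g * x * (g : G)⁻¹) (L.mul_mem (L.mul_mem hgL hx) (L.inv_mem hgL))
  have h7 : (g : G) * (x * e) * (g : G)⁻¹ = g * (e * x) * (g : G)⁻¹ := by
    have h8 : (g : G) * (x * e) * (g : G)⁻¹ = g * x * (g : G)⁻¹ * (g * e * (g : G)⁻¹) := by group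
    have h9 : (g : G) * (e * x) * (g : G)⁻¹ = g * e * (g : G)⁻¹ * (g * x * (g : G)⁻¹) := by group
    rw [h8, h9, h6]
  exact mul_left_cancel (mul_right_cancel h7)

lemma free_lam {l : ℕ} [Fact p.Prime] [hl : Fact l.Prime] [Finite G] {L : Subgroup G}
    (hc : L ⊓ centralizer (L : Set G) = ⊥) (hF : FreeSub p l L) : ¬ (l : ℤ) ∣ lam p L 1 := by
  obtain ⟨U, hUL, hU, hfree⟩ := hF
  have hmod := eu_mod (r := l) (S := {E | E ∈ Ain p L ∧ (1 : G) ∈ normalizer (E : Set G)}) U hU ?_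
  swap
  · rintro u hu E ⟨h1, _⟩
    exact ⟨cj_mem_Ain (hUL hu) h1, one_mem _⟩
  have h0 : {E | E ∈ {E | E ∈ Ain p L ∧ (1 : G) ∈ normalizer (E : Set G)} ∧
      U ≤ normalizer (E : Set G)} = ∅ := by
    ext E
    simp only [Set.mem_ofPred_eq, Set.mem_empty_iff_false, iff_false]
    rintro ⟨⟨⟨h1, h2⟩, _⟩, h3⟩
    have h4 := hfree E h1 (h2.trans le_normalizer) h3
    exact h1.1 (le_bot_iff.1 (hc ▸ le_inf h2 h4))
  rw [h0] at hmod
  have h1 : eu (∅ : Set (Subgroup G)) = 1 := by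
    rw [eu_rec Set.finite_empty]
    simp
  rw [h1] at hmod
  intro h
  have h2 : (l : ℤ) ∣ 1 := by
    have h3 := dvd_sub h hmod
    rw [lam] at h3
    simpa using h3
  exact hl.out.one_lt.ne' (by exact_mod_cast Int.eq_one_of_dvd_one (by positivity) h2)

lemma mem_normalizer_cj {L : Subgroup G} {g x : G} :
    x ∈ normalizer ((cj g L : Subgroup G) : Set G) ↔ g⁻¹ * x * g ∈ normalizer (L : Set G) := by
  rw [← cj_eq_iff, ← cj_eq_iff, ← (cj_injective g⁻¹).eq_iff, ← cj_mul, ← cj_mul, ← cj_mul,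
    inv_mul_cancel, cj_one]

lemma mem_centralizer_cj {L : Subgroup G} {g x : G} :
    x ∈ centralizer ((cj g L : Subgroup G) : Set G) ↔ g⁻¹ * x * g ∈ centralizer (L : Set G) := by
  rw [mem_centralizer_iff, mem_centralizer_iff]
  constructor
  · intro h y hy
    have h1 := h (g * y * g⁻¹) ⟨y, hy, rfl⟩
    have h2 : y * (g⁻¹ * x * g) = g⁻¹ * (g * y * g⁻¹ * x) * g := by group
    have h3 : g⁻¹ * x * g * y = g⁻¹ * (x * (g * y * g⁻¹)) * g := by group
    rw [h2, h3, h1]
  · rintro h _ ⟨y, hy, rfl⟩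
    have h1 := h y hy
    change g * y * g⁻¹ * x = x * (g * y * g⁻¹)
    have h2 : g * y * g⁻¹ * x = g * (y * (g⁻¹ * x * g)) * g⁻¹ := by group
    have h3 : x * (g * y * g⁻¹) = g * (g⁻¹ * x * g * y) * g⁻¹ := by group
    rw [h2, h3, h1]

lemma freeSub_cj {l : ℕ} {L : Subgroup G} (hF : FreeSub p l L) (g : G) :
    FreeSub p l (cj g L) := by
  obtain ⟨U, hUL, hU, hfree⟩ := hF
  refine ⟨cj g U, cj_le.2 hUL, hU.map _, fun E hE hEN hUE => ?_⟩
  have h1 : E = cj g (cj g⁻¹ E) := by rw [← cj_mul, mul_inv_cancel, cj_one]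
  have h2 := hfree (cj g⁻¹ E) (elemAb_cj hE _) ?_ ?_
  · intro e he
    rw [mem_centralizer_cj]
    refine h2 ⟨e, he, ?_⟩
    change g⁻¹ * e * (g⁻¹)⁻¹ = _
    rw [inv_inv]
  · rintro _ ⟨e, he, rfl⟩
    have h3 := mem_normalizer_cj.1 (hEN he)
    change g⁻¹ * e * (g⁻¹)⁻¹ ∈ _
    rwa [inv_inv]
  · intro u hu
    rw [mem_normalizer_cj]
    refine hUE ⟨u, hu, ?_⟩
    change g * u * g⁻¹ = (g⁻¹)⁻¹ * u * g⁻¹
    rw [inv_inv]

lemma freeSub_cj_iff {l : ℕ} {L : Subgroup G} {g : G} :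
    FreeSub p l (cj g L) ↔ FreeSub p l L := by
  refine ⟨fun h => ?_, fun h => freeSub_cj h g⟩
  have h1 := freeSub_cj h g⁻¹
  rwa [← cj_mul, inv_mul_cancel, cj_one] at h1

end

universe u v

section
variable {𝕜 : Type v} [Field 𝕜] {G : Type u} [Group G] {p : ℕ}

theorem adic_free_main [hp : Fact p.Prime] [Finite G] (hO : OpTrivial p G)
    (hO' : ∀ N : Subgroup G, N.Normal → ¬ p ∣ Nat.card N → N = ⊥) (D : Set (Subgroup G))
    (S : Set G) (hDF : D ⊆ Comp G)
    (hconj : ∀ L ∈ D, ∀ g : G, L.map (MulAut.conj g).toMonoidHom ∈ D) {l : ℕ} (hl : l.Prime)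
    (hloc : ∀ L ∈ D, AdicGood p l S L ∨ FreeSub p l L)
    (hT : ∀ L ∈ Comp G, L ∈ D ∨ Removable 𝕜 p L) :
    HQ 𝕜 p G := by
  classical
  have : Fact l.Prime := ⟨hl⟩
  have hfam := comp_family hO hO'
  set S' : Set G := {x | (x ∈ S ∧ (x = 1 ∨ ∀ L ∈ D, FreeSub p l L → x ∉ L)) ∨
    ((1 : G) ∉ S ∧ x ≠ 1 ∧ ∃ L ∈ D, FreeSub p l L ∧ x ∈ L)} with hS'
  have hdisj : ∀ L ∈ D, ∀ M ∈ D, L ≠ M → ∀ x ∈ L, x ∈ M → x = 1 := by
    intro L hL M hM hne x hxL hxM
    have h1 : x ∈ L ⊓ centralizer (L : Set G) := by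
      refine ⟨hxL, mem_centralizer_iff.2 fun y hy => ?_⟩
      exact hfam.comm L (hDF hL) M (hDF hM) hne y hy x hxM
    rw [hfam.centre L (hDF hL)] at h1
    exact h1
  have hfree1 : ∀ L ∈ D, FreeSub p l L → (1 : G) ∈ S → ∀ x ∈ L, (x ∈ S' ↔ x = 1) := by
    intro L hL hF h1 x hx
    constructor
    · rintro (⟨_, h2 | h2⟩ | ⟨h2, _⟩)
      · exact h2
      · exact absurd hx (h2 L hL hF)
      · exact absurd h1 h2
    · rintro rfl
      exact Or.inl ⟨h1, Or.inl rfl⟩
  have hfree2 : ∀ L ∈ D, FreeSub p l L → (1 : G) ∉ S → ∀ x ∈ L, (x ∈ S' ↔ x ≠ 1) := by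
    intro L hL hF h1 x hx
    constructor
    · rintro (⟨h2, h3 | h3⟩ | ⟨_, h2, _⟩)
      · rintro rfl
        exact h1 h2
      · exact absurd hx (h3 L hL hF)
      · exact h2
    · intro h2
      exact Or.inr ⟨h1, h2, L, hL, hF, hx⟩
  have hadic : ∀ L ∈ D, ¬ FreeSub p l L → ∀ x ∈ L, (x ∈ S' ↔ x ∈ S) := by
    intro L hL hF x hx
    constructor
    · rintro (⟨h2, _⟩ | ⟨_, h2, M, hM, hMF, hxM⟩)
      · exact h2
      · refine absurd (hdisj L hL M hM ?_ x hx hxM) h2
        rintro rfl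
        exact hF hMF
    · intro h2
      refine Or.inl ⟨h2, ?_⟩
      by_cases h3 : x = 1
      · exact Or.inl h3
      · refine Or.inr fun M hM hMF hxM => h3 (hdisj L hL M hM ?_ x hx hxM)
        rintro rfl
        exact hF hMF
  refine adic_main hO hO' D S' hDF hconj hl (fun L hL => ?_) hT
  by_cases hF : FreeSub p l L
  · refine ⟨fun h hh hn s hs hsL => ?_, fun g hg s hs hsL => ?_, 0, ?_, ?_⟩
    · have h1 : h * s * h⁻¹ ∈ cj h L := cj_mul_mem hsL
      have h2 : cj h L ∈ D := hconj L hL h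
      have h3 : FreeSub p l (cj h L) := freeSub_cj hF h
      by_cases h1S : (1 : G) ∈ S
      · rw [hfree1 _ h2 h3 h1S _ h1]
        rw [hfree1 L hL hF h1S s hsL] at hs
        rw [hs, mul_one, mul_inv_cancel]
      · rw [hfree2 _ h2 h3 h1S _ h1]
        rw [hfree2 L hL hF h1S s hsL] at hs
        intro h4
        exact hs (by simpa using h4)
    · have h1 : g * s * g⁻¹ ∈ L := L.mul_mem (L.mul_mem hg hsL) (L.inv_mem hg)
      by_cases h1S : (1 : G) ∈ S
      · rw [hfree1 _ hL hF h1S _ h1]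
        rw [hfree1 L hL hF h1S s hsL] at hs
        rw [hs, mul_one, mul_inv_cancel]
      · rw [hfree2 _ hL hF h1S _ h1]
        rw [hfree2 L hL hF h1S s hsL] at hs
        intro h4
        exact hs (by simpa using h4)
    · rw [zero_add, pow_one]
      have hlam := free_lam (p := p) (l := l) (hfam.centre L (hDF hL)) hF
      have hmem1 : (1 : G) ∈ (Set.toFinite (L : Set G)).toFinset := by
        rw [Set.Finite.mem_toFinset]
        exact L.one_mem
      rw [wsum_eq]
      simp only [ite_mul, one_mul, zero_mul]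
      by_cases h1S : (1 : G) ∈ S
      · have h1 : ∑ a ∈ (Set.toFinite (L : Set G)).toFinset,
            (if a ∈ S' then lam p L a else 0) = lam p L 1 := by
          rw [Finset.sum_eq_single_of_mem 1 hmem1]
          · rw [if_pos ((hfree1 L hL hF h1S 1 L.one_mem).2 rfl)]
          · intro b hb hb1
            rw [Set.Finite.mem_toFinset] at hb
            rw [if_neg fun h => hb1 ((hfree1 L hL hF h1S b hb).1 h)]
        rw [h1]
        exact hlam
      · have h1 : ∑ a ∈ (Set.toFinite (L : Set G)).toFinset,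
            (if a ∈ S' then lam p L a else 0) = - lam p L 1 := by
          have hw := webb (p := p) L (hfam.dvd L (hDF hL))
          rw [← Finset.add_sum_erase _ _ hmem1] at hw
          rw [← Finset.add_sum_erase _ _ hmem1,
            if_neg fun h => (hfree2 L hL hF h1S 1 L.one_mem).1 h rfl, zero_add]
          have h2 : ∑ x ∈ (Set.toFinite (L : Set G)).toFinset.erase 1,
              (if x ∈ S' then lam p L x else 0) =
              ∑ x ∈ (Set.toFinite (L : Set G)).toFinset.erase 1, lam p L x := by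
            refine Finset.sum_congr rfl fun x hx => ?_
            rw [Finset.mem_erase, Set.Finite.mem_toFinset] at hx
            rw [if_pos ((hfree2 L hL hF h1S x hx.2).2 hx.1)]
          rw [h2]
          linarith
        rw [h1, dvd_neg]
        exact hlam
    · intro E hEN hE hEC
      rw [zero_add, pow_one]
      exact Dvd.dvd.mul_right (by exact_mod_cast free_index hF hE hEN hEC) _
  · have hA := (hloc L hL).resolve_right hF
    obtain ⟨k, hk1, hk2⟩ := hA.adic
    have hws : ∀ K ≤ L, wsum p S' K = wsum p S K := by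
      intro K hK
      have h1 : S' ∩ (K : Set G) = S ∩ (K : Set G) := by
        ext x
        constructor
        · rintro ⟨h1, h2⟩
          exact ⟨(hadic L hL hF x (hK h2)).1 h1, h2⟩
        · rintro ⟨h1, h2⟩
          exact ⟨(hadic L hL hF x (hK h2)).2 h1, h2⟩
      rw [wsum, wsum, h1]
    refine ⟨fun h hh hn s hs hsL => ?_, fun g hg s hs hsL => ?_, k, ?_, ?_⟩
    · have h1 : h * s * h⁻¹ ∈ cj h L := cj_mul_mem hsL
      have h2 : cj h L ∈ D := hconj L hL h
      rw [hadic _ h2 (fun h3 => hF (freeSub_cj_iff.1 h3)) _ h1]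
      exact hA.move h hh hn s ((hadic L hL hF s hsL).1 hs) hsL
    · have h1 : g * s * g⁻¹ ∈ L := L.mul_mem (L.mul_mem hg hsL) (L.inv_mem hg)
      rw [hadic _ hL hF _ h1]
      exact hA.conj g hg s ((hadic L hL hF s hsL).1 hs) hsL
    · rw [hws L le_rfl]
      exact hk1
    · intro E hEN hE hEC
      rw [hws _ inf_le_left]
      exact hk2 E hEN hE hEC

end

end Vale.Agent.P240.H148
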