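import Mathlib

/-!
Linear algebra for `PSL_n(F)`: the group `Q1` of the transvections with centre `e = e_{i₀}`.
-/

namespace Vale.Agent.P240.H148

open Matrix
open scoped LinearAlgebra.Projectivization

section
variable {ι : Type*} [Fintype ι] [DecidableEq ι] {F : Type*} [Field F]


theorem inv_mv (A : Matrix.SpecialLinearGroup ι F) (v : ι → F) :
    ((A⁻¹ : Matrix.SpecialLinearGroup ι F) : Matrix ι ι F) *ᵥ ((A : Matrix ι ι F) *ᵥ v) = v := by
  have h : ((A⁻¹ : Matrix.SpecialLinearGroup ι F) : Matrix ι ι F) * (A : Matrix ι ι F) = 1 := by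
    have h1 : (((A⁻¹ * A : Matrix.SpecialLinearGroup ι F)) : Matrix ι ι F) = 1 := by
      rw [inv_mul_cancel]; rfl
    exact h1
  rw [Matrix.mulVec_mulVec, h, Matrix.one_mulVec]

theorem mul_mv (A B : Matrix.SpecialLinearGroup ι F) (v : ι → F) :
    ((A * B : Matrix.SpecialLinearGroup ι F) : Matrix ι ι F) *ᵥ v = (A : Matrix ι ι F) *ᵥ ((B : Matrix ι ι F) *ᵥ v) := by
  rw [Matrix.mulVec_mulVec]; rfl

theorem mv_inv (A : Matrix.SpecialLinearGroup ι F) (v : ι → F) :
    (A : Matrix ι ι F) *ᵥ (((A⁻¹ : Matrix.SpecialLinearGroup ι F) : Matrix ι ι F) *ᵥ v) = v := by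
  have := inv_mv A⁻¹ v
  rwa [inv_inv] at this

theorem mv_ne (A : Matrix.SpecialLinearGroup ι F) {v : ι → F} (hv : v ≠ 0) : (A : Matrix ι ι F) *ᵥ v ≠ 0 := by
  intro h
  apply hv
  rw [← inv_mv A v, h, Matrix.mulVec_zero]

theorem sl_ext {A B : (Matrix.SpecialLinearGroup ι F)} (h : ∀ x, (A : Matrix ι ι F) *ᵥ x = (B : Matrix ι ι F) *ᵥ x) :
    A = B := by
  apply Subtype.ext
  exact Matrix.ext_of_mulVec_single fun i => h _

theorem smul_pt (A : Matrix.SpecialLinearGroup ι F) {v : ι → F} (hv : v ≠ 0) :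
    (QuotientGroup.mk A : Matrix.ProjectiveSpecialLinearGroup ι F) • (Projectivization.mk F v hv) =
      Projectivization.mk F ((A : Matrix ι ι F) *ᵥ v) (mv_ne A hv) := rfl

theorem smul_pt_eq_iff (A : Matrix.SpecialLinearGroup ι F) {v w : ι → F} (hv : v ≠ 0) (hw : w ≠ 0) :
    (QuotientGroup.mk A : Matrix.ProjectiveSpecialLinearGroup ι F) • (Projectivization.mk F v hv) = Projectivization.mk F w hw ↔
      ∃ a : F, a • w = (A : Matrix ι ι F) *ᵥ v := by
  rw [smul_pt, Projectivization.mk_eq_mk_iff']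

/-- equality in `PSL` -/
theorem exists_scalar {A B : (Matrix.SpecialLinearGroup ι F)} (h : (QuotientGroup.mk A : Matrix.ProjectiveSpecialLinearGroup ι F) = QuotientGroup.mk B) :
    ∃ c : F, ∀ x, (B : Matrix ι ι F) *ᵥ x = c • ((A : Matrix ι ι F) *ᵥ x) := by
  rw [QuotientGroup.eq, Matrix.SpecialLinearGroup.mem_center_iff] at h
  obtain ⟨c, _, hc⟩ := h
  refine ⟨c, fun x => ?_⟩
  have h1 : (B : Matrix ι ι F) *ᵥ x =
      (A : Matrix ι ι F) *ᵥ (((A⁻¹ * B : Matrix.SpecialLinearGroup ι F) : Matrix ι ι F) *ᵥ x) := by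
    rw [← mul_mv, mul_inv_cancel_left]
  rw [h1, ← hc]
  have h2 : (Matrix.scalar ι c) *ᵥ x = c • x := by
    ext i; simp [Matrix.scalar_apply, Matrix.mulVec_diagonal]
  rw [h2, Matrix.mulVec_smul]

theorem eq_of_scalar {A B : (Matrix.SpecialLinearGroup ι F)} {c : F} (hc : c ^ Fintype.card ι = 1)
    (h : ∀ x, (B : Matrix ι ι F) *ᵥ x = c • ((A : Matrix ι ι F) *ᵥ x)) :
    (QuotientGroup.mk A : Matrix.ProjectiveSpecialLinearGroup ι F) = QuotientGroup.mk B := by
  rw [QuotientGroup.eq, Matrix.SpecialLinearGroup.mem_center_iff]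
  refine ⟨c, hc, ?_⟩
  apply Matrix.ext_of_mulVec_single
  intro i
  have h1 : (((A⁻¹ * B : Matrix.SpecialLinearGroup ι F)) : Matrix ι ι F) *ᵥ Pi.single i 1 = c • Pi.single i 1 := by
    rw [mul_mv, h, Matrix.mulVec_smul, inv_mv]
  have h2 : (Matrix.scalar ι c) *ᵥ (Pi.single i 1 : ι → F) = c • Pi.single i 1 := by
    ext j; simp [Matrix.scalar_apply, Matrix.mulVec_diagonal]
  rw [h1, h2]

variable (i0 : ι)

/-- the vector `e` -/
def ev : ι → F := Pi.single i0 1

theorem ev_ne : (ev i0 : ι → F) ≠ 0 := by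
  intro h
  have := congrFun h i0
  simp [ev] at this

theorem ev_self : (ev i0 : ι → F) i0 = 1 := by simp [ev]

theorem ev_other {j : ι} (hj : j ≠ i0) : (ev i0 : ι → F) j = 0 := by simp [ev, hj]

/-- the transvection `x ↦ x + φ(x) e` -/
noncomputable def tv (φ : ι → F) (h : φ i0 = 0) : (Matrix.SpecialLinearGroup ι F) :=
  ⟨1 + Matrix.vecMulVec (ev i0) φ, by
    rw [Matrix.vecMulVec_eq Unit, Matrix.det_one_add_replicateCol_mul_replicateRow]
    simp [ev, h]⟩

theorem tv_mv (φ : ι → F) (h : φ i0 = 0) (x : ι → F) :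
    (tv i0 φ h : Matrix ι ι F) *ᵥ x = x + (φ ⬝ᵥ x) • ev i0 := by
  change (1 + Matrix.vecMulVec (ev i0) φ) *ᵥ x = _
  rw [Matrix.add_mulVec, Matrix.one_mulVec, Matrix.vecMulVec_mulVec]
  simp

theorem dot_ev (φ : ι → F) : φ ⬝ᵥ ev i0 = φ i0 := by simp [ev]

theorem tv_ev (φ : ι → F) (h : φ i0 = 0) :
    (tv i0 φ h : Matrix ι ι F) *ᵥ ev i0 = ev i0 := by
  rw [tv_mv, dot_ev, h, zero_smul, add_zero]

/-- the point `[e]` -/
def pe : ℙ F (ι → F) := Projectivization.mk F (ev i0) (ev_ne i0)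

/-- The group of the transvections with centre `e`. -/
def Q1 : Subgroup (Matrix.ProjectiveSpecialLinearGroup ι F) where
  carrier := {g | ∃ (φ : ι → F) (h : φ i0 = 0), (QuotientGroup.mk (tv i0 φ h) : Matrix.ProjectiveSpecialLinearGroup ι F) = g}
  one_mem' := ⟨0, rfl, by
    have : tv i0 (0 : ι → F) rfl = 1 := sl_ext fun x => by
      rw [tv_mv, zero_dotProduct, zero_smul, add_zero]
      exact (Matrix.one_mulVec x).symm
    rw [this]; rfl⟩
  mul_mem' := by
    rintro _ _ ⟨φ, h, rfl⟩ ⟨ψ, k, rfl⟩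
    refine ⟨φ + ψ, by simp [h, k], ?_⟩
    rw [← QuotientGroup.mk_mul]
    congr 1
    refine sl_ext fun x => ?_
    rw [mul_mv, tv_mv, tv_mv, tv_mv, add_dotProduct, dotProduct_add, dotProduct_smul, dot_ev, h]
    simp only [smul_zero, add_zero, add_smul]
    abel
  inv_mem' := by
    rintro _ ⟨φ, h, rfl⟩
    refine ⟨-φ, by simp [h], ?_⟩
    rw [← QuotientGroup.mk_inv, eq_comm]
    congr 1
    rw [inv_eq_iff_mul_eq_one]
    refine sl_ext fun x => ?_
    rw [mul_mv, tv_mv, tv_mv, neg_dotProduct, dotProduct_add, dotProduct_smul, dot_ev, h]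
    have : ((1 : Matrix.SpecialLinearGroup ι F) : Matrix ι ι F) *ᵥ x = x := Matrix.one_mulVec x
    rw [this]
    simp

theorem tv_mem (φ : ι → F) (h : φ i0 = 0) : (QuotientGroup.mk (tv i0 φ h) : Matrix.ProjectiveSpecialLinearGroup ι F) ∈ Q1 i0 :=
  ⟨φ, h, rfl⟩

theorem Q1_pe {g : (Matrix.ProjectiveSpecialLinearGroup ι F)} (hg : g ∈ Q1 i0) : g • pe i0 = (pe i0 : ℙ F (ι → F)) := by
  obtain ⟨φ, h, rfl⟩ := hg
  rw [pe, smul_pt_eq_iff]
  exact ⟨1, by rw [tv_ev, one_smul]⟩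

/-- A lift `T` with `T e = e` and `T x - x ∈ F e` for all `x` gives an element of `Q1`. -/
theorem mem_Q1_of {T : (Matrix.SpecialLinearGroup ι F)} (he : (T : Matrix ι ι F) *ᵥ ev i0 = ev i0)
    (h : ∀ x, ∀ j, j ≠ i0 → ((T : Matrix ι ι F) *ᵥ x) j = x j) :
    (QuotientGroup.mk T : Matrix.ProjectiveSpecialLinearGroup ι F) ∈ Q1 i0 := by
  set φ : ι → F := fun j => (T : Matrix ι ι F) i0 j - (if j = i0 then 1 else 0) with hφ
  have hTi : (T : Matrix ι ι F) i0 i0 = 1 := by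
    have := congrFun he i0
    rw [ev_self, ev, Matrix.mulVec_single_one] at this
    exact this
  have h0 : φ i0 = 0 := by simp [hφ, hTi]
  refine ⟨φ, h0, ?_⟩
  congr 1
  refine sl_ext fun x => ?_
  rw [tv_mv]
  ext j
  by_cases hj : j = i0
  · subst hj
    simp only [Pi.add_apply, Pi.smul_apply, ev_self, smul_eq_mul, mul_one]
    have h1 : φ ⬝ᵥ x = ((T : Matrix ι ι F) *ᵥ x) j - x j := by
      rw [hφ]
      simp only [dotProduct, Matrix.mulVec, sub_mul, Finset.sum_sub_distrib, ite_mul, one_mul,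
        zero_mul, Finset.sum_ite_eq', Finset.mem_univ, if_true]
    rw [h1]; ring
  · rw [h x j hj]
    simp [ev_other i0 hj]

/-- If the nonzero vector `w` spans a point fixed by `tv φ`, and `w ∉ F e`, then `φ w = 0`. -/
theorem dot_eq_zero {φ w : ι → F} (h : φ i0 = 0) {a : F}
    (hw : a • w = (tv i0 φ h : Matrix ι ι F) *ᵥ w) {j : ι} (hj : j ≠ i0) (hwj : w j ≠ 0) :
    φ ⬝ᵥ w = 0 := by
  rw [tv_mv] at hw
  have h1 := congrFun hw j
  simp only [Pi.smul_apply, Pi.add_apply, ev_other i0 hj, smul_eq_mul, mul_zero, add_zero] at h1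
  have ha : a = 1 := by
    have : (a - 1) * w j = 0 := by rw [sub_mul, h1]; ring
    rcases mul_eq_zero.1 this with h2 | h2
    · exact sub_eq_zero.1 h2
    · exact absurd h2 hwj
  have h2 := congrFun hw i0
  simp only [Pi.smul_apply, Pi.add_apply, ev_self, smul_eq_mul, mul_one, ha, one_mul] at h2
  linear_combination -h2

/-- The vectors spanning points fixed by the `tv φ` with `φ v = 0` lie in the span of `e`, `v`. -/
theorem mem_span_of_fixed {v w : ι → F} {j0 : ι} (hj0 : j0 ≠ i0) (hv : v j0 ≠ 0)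
    (h : ∀ (φ : ι → F) (h : φ i0 = 0), φ ⬝ᵥ v = 0 →
      ∃ a : F, a • w = (tv i0 φ h : Matrix ι ι F) *ᵥ w) :
    ∃ a b : F, w = a • ev i0 + b • v := by
  have key : ∀ j, j ≠ i0 → v j0 * w j = v j * w j0 := by
    by_cases hw : ∃ j, j ≠ i0 ∧ w j ≠ 0
    · obtain ⟨k, hk, hwk⟩ := hw
      intro j hj
      obtain ⟨a, ha⟩ := h (v j0 • Pi.single j 1 - v j • Pi.single j0 1)
        (by simp [hj.symm, hj0.symm]) (by simp [sub_dotProduct]; ring)
      have h1 := dot_eq_zero i0 _ ha hk hwk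
      rw [sub_dotProduct, smul_dotProduct, smul_dotProduct, single_one_dotProduct,
        single_one_dotProduct] at h1
      simpa [sub_eq_zero] using h1
    · push Not at hw
      intro j hj
      rw [hw j hj, hw j0 hj0, mul_zero, mul_zero]
  refine ⟨w i0 - w j0 / v j0 * v i0, w j0 / v j0, ?_⟩
  ext j
  by_cases hj : j = i0
  · subst hj
    simp [ev_self]
  · simp only [Pi.add_apply, Pi.smul_apply, ev_other i0 hj, smul_eq_mul, mul_zero, zero_add]
    have := key j hj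
    field_simp
    linear_combination this

/-- `C(Q1) ≤ Q1` -/
theorem mem_Q1_of_comm {g : (Matrix.ProjectiveSpecialLinearGroup ι F)} (hg : ∀ s ∈ Q1 i0, g * s = s * g) : g ∈ Q1 i0 := by
  induction g using QuotientGroup.induction_on with
  | H X =>
  have h1 : ∀ (φ : ι → F) (h : φ i0 = 0), ∃ c : F, ∀ x,
      (X : Matrix ι ι F) *ᵥ x + (φ ⬝ᵥ ((X : Matrix ι ι F) *ᵥ x)) • ev i0 =
        c • ((X : Matrix ι ι F) *ᵥ x + (φ ⬝ᵥ x) • ((X : Matrix ι ι F) *ᵥ ev i0)) := by
    intro φ h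
    have h2 := hg _ (tv_mem i0 φ h)
    rw [← QuotientGroup.mk_mul, ← QuotientGroup.mk_mul] at h2
    obtain ⟨c, hc⟩ := exists_scalar h2
    refine ⟨c, fun x => ?_⟩
    have h3 := hc x
    rw [mul_mv, mul_mv, tv_mv, tv_mv, Matrix.mulVec_add, Matrix.mulVec_smul] at h3
    exact h3
  -- `X e = μ e`
  have h2 : ∀ j, j ≠ i0 → ((X : Matrix ι ι F) *ᵥ ev i0) j = 0 := by
    intro j hj
    by_contra hne
    obtain ⟨c, hc⟩ := h1 (Pi.single j 1) (by simp [hj.symm])
    have h3 := hc (ev i0)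
    rw [dot_ev] at h3
    simp only [single_one_dotProduct, Pi.single_eq_of_ne hj.symm, zero_smul, add_zero] at h3
    have h4 := congrFun h3 j
    simp only [Pi.add_apply, Pi.smul_apply, ev_other i0 hj, smul_eq_mul, mul_zero, add_zero] at h4
    have hc1 : c = 1 := by
      have : (c - 1) * ((X : Matrix ι ι F) *ᵥ ev i0) j = 0 := by
        rw [sub_mul, ← h4]; ring
      rcases mul_eq_zero.1 this with h5 | h5
      · exact sub_eq_zero.1 h5
      · exact absurd h5 hne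
    have h5 := congrFun h3 i0
    simp only [Pi.add_apply, Pi.smul_apply, ev_self, smul_eq_mul, mul_one, hc1, one_mul] at h5
    apply hne
    linear_combination h5
  set μ : F := ((X : Matrix ι ι F) *ᵥ ev i0) i0 with hμ
  have hXe : (X : Matrix ι ι F) *ᵥ ev i0 = μ • ev i0 := by
    ext j
    by_cases hj : j = i0
    · subst hj
      simp [ev_self, hμ]
    · simp [ev_other i0 hj, h2 j hj]
  have hμ0 : μ ≠ 0 := by
    intro h
    exact mv_ne X (ev_ne i0) (by rw [hXe, h, zero_smul])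
  have h3 : ∀ (φ : ι → F) (h : φ i0 = 0) (x : ι → F),
      φ ⬝ᵥ ((X : Matrix ι ι F) *ᵥ x) = μ * (φ ⬝ᵥ x) := by
    intro φ h x
    obtain ⟨c, hc⟩ := h1 φ h
    have hc1 : c = 1 := by
      have h4 := congrFun (hc (ev i0)) i0
      rw [hXe, dot_ev, dotProduct_smul, dot_ev, h] at h4
      simp only [zero_smul, add_zero, Pi.smul_apply, Pi.add_apply, ev_self, smul_eq_mul,
        mul_one, mul_zero, Pi.zero_apply] at h4
      have : (c - 1) * μ = 0 := by rw [sub_mul, ← h4]; ring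
      rcases mul_eq_zero.1 this with h5 | h5
      · exact sub_eq_zero.1 h5
      · exact absurd h5 hμ0
    have h4 := congrFun (hc x) i0
    rw [hXe, hc1] at h4
    simp only [Pi.add_apply, Pi.smul_apply, ev_self, smul_eq_mul, mul_one, one_mul] at h4
    linear_combination h4
  have h4 : ∀ x, ∀ j, j ≠ i0 → ((X : Matrix ι ι F) *ᵥ x) j = μ * x j := by
    intro x j hj
    have := h3 (Pi.single j 1) (by simp [hj.symm]) x
    simpa using this
  -- the transvection part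
  have hdet : ∃ (ψ : ι → F) (h : ψ i0 = 0), ∀ x,
      (X : Matrix ι ι F) *ᵥ x = μ • ((tv i0 ψ h : Matrix ι ι F) *ᵥ x) := by
    refine ⟨fun j => μ⁻¹ * ((X : Matrix ι ι F) i0 j) - (if j = i0 then 1 else 0), ?_, fun x => ?_⟩
    · have : (X : Matrix ι ι F) i0 i0 = μ := by
        rw [hμ, ev, Matrix.mulVec_single_one]; rfl
      simp [this, hμ0]
    · rw [tv_mv]
      ext j
      by_cases hj : j = i0
      · subst hj
        simp only [Pi.smul_apply, Pi.add_apply, ev_self, smul_eq_mul, mul_one]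
        have h5 : (fun k => μ⁻¹ * ((X : Matrix ι ι F) j k) - (if k = j then 1 else 0)) ⬝ᵥ x =
            μ⁻¹ * ((X : Matrix ι ι F) *ᵥ x) j - x j := by
          simp only [dotProduct, Matrix.mulVec, sub_mul, Finset.sum_sub_distrib, ite_mul, one_mul,
            zero_mul, Finset.sum_ite_eq', Finset.mem_univ, if_true, Finset.mul_sum, mul_assoc]
        rw [h5]
        field_simp
        ring
      · rw [h4 x j hj]
        simp [ev_other i0 hj]
  obtain ⟨ψ, hψ, hX⟩ := hdet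
  have hcard : μ ^ Fintype.card ι = 1 := by
    have h5 : (X : Matrix ι ι F) = μ • (tv i0 ψ hψ : Matrix ι ι F) := by
      apply Matrix.ext_of_mulVec_single
      intro i
      rw [hX, Matrix.smul_mulVec]
    have h6 : (X : Matrix ι ι F).det = 1 := X.2
    rw [h5, Matrix.det_smul] at h6
    have h7 : (tv i0 ψ hψ : Matrix ι ι F).det = 1 := (tv i0 ψ hψ).2
    rwa [h7, mul_one] at h6
  rw [← eq_of_scalar hcard hX]
  exact tv_mem i0 ψ hψ

/-- The stabilizer of `[e]` normalizes `Q1`. -/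
theorem conj_mem_Q1 {g s : (Matrix.ProjectiveSpecialLinearGroup ι F)} (hg : g • pe i0 = (pe i0 : ℙ F (ι → F))) (hs : s ∈ Q1 i0) :
    g * s * g⁻¹ ∈ Q1 i0 := by
  obtain ⟨φ, h, rfl⟩ := hs
  induction g using QuotientGroup.induction_on with
  | H X =>
  rw [pe, smul_pt_eq_iff] at hg
  obtain ⟨μ, hμ⟩ := hg
  have hμ0 : μ ≠ 0 := by
    rintro rfl
    exact mv_ne X (ev_ne i0) (by rw [← hμ, zero_smul])
  have hinv : ((X⁻¹ : Matrix.SpecialLinearGroup ι F) : Matrix ι ι F) *ᵥ ev i0 = μ⁻¹ • ev i0 := by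
    have h1 : ev i0 = μ⁻¹ • ((X : Matrix ι ι F) *ᵥ ev i0) := by
      rw [← hμ, smul_smul, inv_mul_cancel₀ hμ0, one_smul]
    conv_lhs => rw [h1]
    rw [Matrix.mulVec_smul, inv_mv]
  rw [← QuotientGroup.mk_inv, ← QuotientGroup.mk_mul, ← QuotientGroup.mk_mul]
  refine mem_Q1_of i0 ?_ fun x j hj => ?_
  · rw [mul_mv, mul_mv, hinv, Matrix.mulVec_smul, tv_ev, Matrix.mulVec_smul, ← hμ, smul_smul,
      inv_mul_cancel₀ hμ0, one_smul]
  · rw [mul_mv, mul_mv, tv_mv, Matrix.mulVec_add, mv_inv, Matrix.mulVec_smul, ← hμ]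
    simp [ev_other i0 hj]

/-- `Q1` is an `r`-group, `r` the characteristic of `F`. -/
theorem Q1_pow {r : ℕ} (hr : (r : F) = 0) {s : (Matrix.ProjectiveSpecialLinearGroup ι F)} (hs : s ∈ Q1 i0) : s ^ r = 1 := by
  obtain ⟨φ, h, rfl⟩ := hs
  have key : ∀ n : ℕ, ∀ x, (((tv i0 φ h) ^ n : Matrix.SpecialLinearGroup ι F) : Matrix ι ι F) *ᵥ x =
      x + ((n : F) * (φ ⬝ᵥ x)) • ev i0 := by
    intro n
    induction n with
    | zero =>
      intro x
      rw [pow_zero]
      simp only [Nat.cast_zero, zero_mul, zero_smul, add_zero]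
      exact Matrix.one_mulVec x
    | succ n ih =>
      intro x
      rw [pow_succ, mul_mv, ih, tv_mv, dotProduct_add, dotProduct_smul, dot_ev, h]
      simp only [smul_zero, add_zero, Nat.cast_succ, add_mul, one_mul, add_smul]
      abel
  have h1 : (tv i0 φ h) ^ r = 1 := sl_ext fun x => by
    rw [key, hr, zero_mul, zero_smul, add_zero]
    exact (Matrix.one_mulVec x).symm
  rw [← QuotientGroup.mk_pow, h1]
  rfl

end

end Vale.Agent.P240.H148
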