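import Vale.Agent.P240.H148.PSLa

/-!
`PSL_n(F)`, `n ≥ 3` or `|F| ≥ 4`: the group `Q1` normalizes no abelian `p`-subgroup `≠ 1`, and an
automorphism of order `p` that centralizes `Q1` is trivial (`p` different from the characteristic).
-/

namespace Vale.Agent.P240.H148

open Matrix
open scoped LinearAlgebra.Projectivization

section
variable {ι : Type*} [Fintype ι] [DecidableEq ι] {F : Type*} [Field F] (i0 : ι)


/-- the transvections in `Q1` fixing the point `x` -/
def Q1x (x : ℙ F (ι → F)) : Subgroup (Matrix.ProjectiveSpecialLinearGroup ι F) := Q1 i0 ⊓ MulAction.stabilizer (Matrix.ProjectiveSpecialLinearGroup ι F) x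

theorem isPGroup_Q1 {r : ℕ} (hr : (r : F) = 0) : IsPGroup r (Q1 i0 : Subgroup (Matrix.ProjectiveSpecialLinearGroup ι F)) := by
  intro g
  refine ⟨1, ?_⟩
  rw [pow_one]
  exact Subtype.ext (Q1_pow i0 hr g.2)

theorem isPGroup_Q1x {r : ℕ} (hr : (r : F) = 0) (x : ℙ F (ι → F)) :
    IsPGroup r (Q1x i0 x : Subgroup (Matrix.ProjectiveSpecialLinearGroup ι F)) :=
  (isPGroup_Q1 i0 hr).to_le inf_le_left

/-- a point `≠ [e]` and a representative -/
theorem exists_coord {v : ι → F} (hv : v ≠ 0)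
    (h : (Projectivization.mk F v hv) ≠ pe i0) : ∃ j, j ≠ i0 ∧ v j ≠ 0 := by
  by_contra hcon
  push Not at hcon
  apply h
  rw [pe, Projectivization.mk_eq_mk_iff']
  refine ⟨v i0, ?_⟩
  ext j
  by_cases hj : j = i0
  · subst hj; simp [ev_self]
  · simp [ev_other i0 hj, hcon j hj]

/-- the elements of `Q1` fixing `[v]` -/
theorem tv_mem_Q1x {φ v : ι → F} (h : φ i0 = 0) (hv : v ≠ 0) (hφ : φ ⬝ᵥ v = 0) :
    (QuotientGroup.mk (tv i0 φ h) : Matrix.ProjectiveSpecialLinearGroup ι F) ∈ Q1x i0 (Projectivization.mk F v hv) := by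
  refine ⟨tv_mem i0 φ h, ?_⟩
  change (QuotientGroup.mk (tv i0 φ h) : Matrix.ProjectiveSpecialLinearGroup ι F) • _ = _
  rw [smul_pt_eq_iff]
  exact ⟨1, by rw [tv_mv, hφ, zero_smul, add_zero, one_smul]⟩

/-- points fixed by `Q1x [v]` -/
theorem span_of_fixed {v w : ι → F} (hv : v ≠ 0) (hw : w ≠ 0) {j0 : ι} (hj0 : j0 ≠ i0)
    (hvj : v j0 ≠ 0)
    (h : ∀ s ∈ Q1x i0 (Projectivization.mk F v hv),
      s • (Projectivization.mk F w hw) = Projectivization.mk F w hw) :
    ∃ a b : F, w = a • ev i0 + b • v := by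
  refine mem_span_of_fixed i0 hj0 hvj fun φ hφ hφv => ?_
  have := h _ (tv_mem_Q1x i0 hφ hv hφv)
  rwa [smul_pt_eq_iff] at this

/-- **Key lemma.** An abelian `p`-group normalized by `Q1` fixes the point `[e]`. -/
theorem fix_pe [Finite F] {p r : ℕ} [hp : Fact p.Prime] [hr : Fact r.Prime] (hpr : p ≠ r)
    (hchar : (r : F) = 0) (hbig : (∃ t : F, t ≠ 0 ∧ t ^ 2 ≠ 1) ∨ ∀ i j : ι, ∃ k, k ≠ i ∧ k ≠ j)
    {E : Subgroup (Matrix.ProjectiveSpecialLinearGroup ι F)}
    (hcomm : ∀ x ∈ E, ∀ y ∈ E, x * y = y * x) (hE : IsPGroup p E)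
    (hN : ∀ s ∈ Q1 i0, ∀ x ∈ E, s * x * s⁻¹ ∈ E) {e0 : (Matrix.ProjectiveSpecialLinearGroup ι F)} (he0 : e0 ∈ E) :
    e0 • pe i0 = (pe i0 : ℙ F (ι → F)) := by
  by_contra hne
  set x0 : ℙ F (ι → F) := e0 • pe i0 with hx0
  -- an element of `E` mapping `[e]` to `x0` and commuting with `Q1x x0`
  obtain ⟨c, hcE, hcx, hcS⟩ : ∃ c ∈ E, c • pe i0 = x0 ∧ ∀ s ∈ Q1x i0 x0, s * c = c * s := by
    have hmem : ∀ s ∈ Q1x i0 x0, ∀ y : (Matrix.ProjectiveSpecialLinearGroup ι F), y ∈ E ∧ y • pe i0 = x0 →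
        s * y * s⁻¹ ∈ E ∧ (s * y * s⁻¹) • pe i0 = x0 := by
      rintro s ⟨hs1, hs2⟩ y ⟨hy1, hy2⟩
      refine ⟨hN s hs1 y hy1, ?_⟩
      rw [mul_smul, mul_smul, Q1_pe i0 (inv_mem hs1), hy2]
      exact hs2
    let T : Type _ := {y : (Matrix.ProjectiveSpecialLinearGroup ι F) // y ∈ E ∧ y • pe i0 = x0}
    let _ : MulAction (Q1x i0 x0) T :=
      { smul := fun s y => ⟨s * y * (s : Matrix.ProjectiveSpecialLinearGroup ι F)⁻¹, hmem s s.2 y y.2⟩
        one_smul := fun y => Subtype.ext (by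
          change (1 : Matrix.ProjectiveSpecialLinearGroup ι F) * y * (1 : Matrix.ProjectiveSpecialLinearGroup ι F)⁻¹ = y
          simp)
        mul_smul := fun s s' y => Subtype.ext (by
          change ((s : Matrix.ProjectiveSpecialLinearGroup ι F) * s') * y * ((s : Matrix.ProjectiveSpecialLinearGroup ι F) * s')⁻¹ =
            (s : Matrix.ProjectiveSpecialLinearGroup ι F) * ((s' : Matrix.ProjectiveSpecialLinearGroup ι F) * y * (s' : Matrix.ProjectiveSpecialLinearGroup ι F)⁻¹) * (s : Matrix.ProjectiveSpecialLinearGroup ι F)⁻¹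
          group) }
    have hT : ¬ r ∣ Nat.card T := by
      let K : Subgroup E := (MulAction.stabilizer (Matrix.ProjectiveSpecialLinearGroup ι F) (pe i0 : ℙ F (ι → F))).subgroupOf E
      have hK : IsPGroup p K := hE.to_subgroup K
      obtain ⟨k, hk⟩ := IsPGroup.iff_card.1 hK
      have hcard : Nat.card T = Nat.card K := by
        refine Nat.card_congr
          { toFun := fun y => ⟨⟨e0⁻¹ * y.1, mul_mem (inv_mem he0) y.2.1⟩, ?_⟩
            invFun := fun z => ⟨e0 * (z.1 : Matrix.ProjectiveSpecialLinearGroup ι F), mul_mem he0 z.1.2, ?_⟩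
            left_inv := fun y => Subtype.ext (by simp)
            right_inv := fun z => Subtype.ext (Subtype.ext (by simp)) }
        · rw [Subgroup.mem_subgroupOf, MulAction.mem_stabilizer_iff, mul_smul, y.2.2, hx0,
            inv_smul_smul]
        · have hz := z.2
          rw [Subgroup.mem_subgroupOf, MulAction.mem_stabilizer_iff] at hz
          rw [mul_smul, hz]
      rw [hcard, hk]
      intro hd
      exact hpr ((Nat.prime_dvd_prime_iff_eq hr.out hp.out).1 (hr.out.dvd_of_dvd_pow hd)).symm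
    obtain ⟨y, hy⟩ := (isPGroup_Q1x i0 hchar x0).nonempty_fixed_point_of_prime_not_dvd_card T hT
    refine ⟨y.1, y.2.1, y.2.2, fun s hs => ?_⟩
    have h1 := congrArg Subtype.val (hy ⟨s, hs⟩)
    have h2 : s * y.1 * s⁻¹ = y.1 := h1
    rwa [mul_inv_eq_iff_eq_mul] at h2
  -- lift
  induction c using QuotientGroup.induction_on with
  | H C =>
  set v : ι → F := (C : Matrix ι ι F) *ᵥ ev i0 with hv
  have hv0 : v ≠ 0 := mv_ne C (ev_ne i0)
  have hx0v : x0 = Projectivization.mk F v hv0 := by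
    rw [← hcx, pe, smul_pt]
  obtain ⟨j0, hj0, hvj⟩ := exists_coord i0 hv0 (by rw [← hx0v]; exact hne)
  rcases hbig with ⟨t, ht0, ht⟩ | hthree
  swap
  · -- at least three coordinates: `c` commutes with a nontrivial element of `Q1x x0`
    obtain ⟨k, hk, hkj⟩ := hthree i0 j0
    set φ : ι → F := v j0 • Pi.single k 1 - v k • Pi.single j0 1 with hφ
    have hφ0 : φ i0 = 0 := by simp [hφ, hk.symm, hj0.symm]
    have hφv : φ ⬝ᵥ v = 0 := by simp [hφ, sub_dotProduct]; ring
    have h1 := hcS _ (by rw [hx0v]; exact tv_mem_Q1x i0 hφ0 hv0 hφv)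
    rw [← QuotientGroup.mk_mul, ← QuotientGroup.mk_mul] at h1
    obtain ⟨lam, hlam⟩ := exists_scalar h1
    have h2 := congrFun (hlam (ev i0)) j0
    rw [mul_mv, mul_mv, tv_ev, ← hv, tv_mv, hφv, zero_smul, add_zero, Pi.smul_apply,
      smul_eq_mul] at h2
    have h3 : lam = 1 := mul_right_cancel₀ hvj (by rw [← h2, one_mul])
    have h4 := congrFun (hlam (Pi.single k 1)) j0
    rw [mul_mv, mul_mv, tv_mv, tv_mv, h3, one_smul, Matrix.mulVec_add, Matrix.mulVec_smul,
      ← hv] at h4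
    simp only [Pi.add_apply, Pi.smul_apply, ev_other i0 hj0, smul_eq_mul, mul_zero,
      add_zero] at h4
    have h5 : φ ⬝ᵥ (Pi.single k 1 : ι → F) = v j0 := by
      simp [hφ, hkj]
    rw [h5] at h4
    exact hvj (mul_self_eq_zero.1 (by linear_combination h4))
  -- `C v = α e + β v`
  obtain ⟨α, β, hαβ⟩ : ∃ α β : F, (C : Matrix ι ι F) *ᵥ v = α • ev i0 + β • v := by
    refine span_of_fixed i0 hv0 (mv_ne C hv0) hj0 hvj fun s hs => ?_
    rw [← smul_pt C hv0, ← mul_smul]
    rw [← hx0v] at hs ⊢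
    rw [hcS s hs, mul_smul]
    congr 1
    exact hs.2
  -- the commutation relations
  have key : ∀ a : F, a ≠ 0 → a ^ 2 = 2 * α + β ^ 2 := by
    intro a ha
    set φ : ι → F := a • ((v j0)⁻¹ • Pi.single j0 1) with hφ
    have hφ0 : φ i0 = 0 := by simp [hφ, hj0.symm]
    have hφv : φ ⬝ᵥ v = a := by
      rw [hφ, smul_dotProduct, smul_dotProduct, single_one_dotProduct, smul_eq_mul, smul_eq_mul,
        inv_mul_cancel₀ hvj, mul_one]
    have hτ := tv_mem (F := F) i0 φ hφ0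
    have h1 := hcomm _ hcE _ (hN _ hτ _ hcE)
    rw [← QuotientGroup.mk_inv, ← QuotientGroup.mk_mul, ← QuotientGroup.mk_mul,
      ← QuotientGroup.mk_mul, ← QuotientGroup.mk_mul] at h1
    obtain ⟨lam, hlam⟩ := exists_scalar h1.symm
    have h2 := hlam (ev i0)
    have hinve : (((tv i0 φ hφ0)⁻¹ : Matrix.SpecialLinearGroup ι F) : Matrix ι ι F) *ᵥ ev i0 = ev i0 := by
      conv_lhs => rw [← tv_ev i0 φ hφ0]
      rw [inv_mv]
    have hinvv : (((tv i0 φ hφ0)⁻¹ : Matrix.SpecialLinearGroup ι F) : Matrix ι ι F) *ᵥ v = v - a • ev i0 := by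
      have h3 : (tv i0 φ hφ0 : Matrix ι ι F) *ᵥ (v - a • ev i0) = v := by
        rw [Matrix.mulVec_sub, Matrix.mulVec_smul, tv_ev, tv_mv, hφv]
        abel
      conv_lhs => rw [← h3]
      rw [inv_mv]
    simp only [mul_mv] at h2
    rw [hinve, ← hv, tv_mv, hφv, Matrix.mulVec_add, Matrix.mulVec_smul, ← hv, hαβ, hinvv,
      Matrix.mulVec_sub, Matrix.mulVec_smul, ← hv, hαβ, tv_mv, dotProduct_sub, dotProduct_add,
      dotProduct_smul, dotProduct_smul, dotProduct_smul, dot_ev, hφ0, hφv] at h2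
    have h3 := congrFun h2 j0
    have h4 := congrFun h2 i0
    simp only [Pi.add_apply, Pi.sub_apply, Pi.smul_apply, ev_self, ev_other i0 hj0, smul_eq_mul,
      mul_one, mul_zero, zero_add, add_zero] at h3 h4
    have h5 : β + a = lam * (β - a) := by
      have : (β + a) * v j0 = (lam * (β - a)) * v j0 := by linear_combination h3
      exact mul_right_cancel₀ hvj this
    have h6 : α = lam * (α + a * β - a ^ 2) := by
      linear_combination h4 - v i0 * h5
    have h7 : α * (β - a) = (α + a * β - a ^ 2) * (β + a) := by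
      rw [h5]
      conv_lhs => rw [h6]
      ring
    have h8 : a * (a ^ 2) = a * (2 * α + β ^ 2) := by linear_combination h7
    exact mul_left_cancel₀ ha h8
  have h1 := key 1 one_ne_zero
  have h2 := key t ht0
  apply ht
  rw [h2, ← h1, one_pow]

/-- `Q1` normalizes no abelian `p`-subgroup `≠ 1`. -/
theorem abelian_bot [Finite F] {p r : ℕ} [hp : Fact p.Prime] [hr : Fact r.Prime] (hpr : p ≠ r)
    (hchar : (r : F) = 0) (hbig : (∃ t : F, t ≠ 0 ∧ t ^ 2 ≠ 1) ∨ ∀ i j : ι, ∃ k, k ≠ i ∧ k ≠ j)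
    {E : Subgroup (Matrix.ProjectiveSpecialLinearGroup ι F)}
    (hcomm : ∀ x ∈ E, ∀ y ∈ E, x * y = y * x) (hE : IsPGroup p E)
    (hN : ∀ s ∈ Q1 i0, ∀ x ∈ E, s * x * s⁻¹ ∈ E) : E = ⊥ := by
  have hdis : Disjoint E (Q1 i0) :=
    IsPGroup.disjoint_of_ne p r hpr E (Q1 i0) hE (isPGroup_Q1 i0 hchar)
  have hbot : ∀ x ∈ E, x ∈ Q1 i0 → x = 1 := fun x h1 h2 =>
    Subgroup.disjoint_def.1 hdis h1 h2
  rw [eq_bot_iff]
  intro x hx
  rw [Subgroup.mem_bot]
  refine hbot x hx (mem_Q1_of_comm i0 fun s hs => ?_)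
  have hfix := fix_pe i0 hpr hchar hbig hcomm hE hN hx
  have h1 : x * s * x⁻¹ * s⁻¹ ∈ Q1 i0 := mul_mem (conj_mem_Q1 i0 hfix hs) (inv_mem hs)
  have h2 : x * s * x⁻¹ * s⁻¹ ∈ E := by
    have : x * s * x⁻¹ * s⁻¹ = x * (s * x⁻¹ * s⁻¹) := by group
    rw [this]
    exact mul_mem hx (hN s hs _ (inv_mem hx))
  have h3 := hbot _ h2 h1
  rw [mul_inv_eq_one, mul_inv_eq_iff_eq_mul] at h3
  exact h3

/-- An automorphism of order dividing `p` that centralizes `Q1` is trivial. -/
theorem aut_eq_one {p r : ℕ} [hp : Fact p.Prime] [hr : Fact r.Prime] (hpr : p ≠ r)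
    (hchar : (r : F) = 0) (f : (Matrix.ProjectiveSpecialLinearGroup ι F) ≃* (Matrix.ProjectiveSpecialLinearGroup ι F)) (hf : ∀ g, (f : (Matrix.ProjectiveSpecialLinearGroup ι F) → (Matrix.ProjectiveSpecialLinearGroup ι F))^[p] g = g)
    (hQ : ∀ s ∈ Q1 i0, f s = s) (g : Matrix.ProjectiveSpecialLinearGroup ι F) : f g = g := by
  have hcop : Nat.Coprime p r := (Nat.coprime_primes hp.out hr.out).2 hpr
  -- `f` fixes the stabilizer of `[e]`
  have hP : ∀ g : (Matrix.ProjectiveSpecialLinearGroup ι F), g • pe i0 = (pe i0 : ℙ F (ι → F)) → f g = g := by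
    intro g hg
    have hz : g⁻¹ * f g ∈ Q1 i0 := by
      refine mem_Q1_of_comm i0 fun s hs => ?_
      have h1 := hQ _ (conj_mem_Q1 i0 hg hs)
      rw [map_mul, map_mul, map_inv, hQ s hs] at h1
      -- `f g * s * (f g)⁻¹ = g * s * g⁻¹`
      have h2 : f g * s = g * s * g⁻¹ * f g := by
        rw [← h1]; group
      rw [mul_assoc, h2]; group
    set z := g⁻¹ * f g with hzdef
    have hfg : f g = g * z := by rw [hzdef, mul_inv_cancel_left]
    have hiter : ∀ k : ℕ, (f : (Matrix.ProjectiveSpecialLinearGroup ι F) → (Matrix.ProjectiveSpecialLinearGroup ι F))^[k] g = g * z ^ k := by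
      intro k
      induction k with
      | zero => simp
      | succ k ih =>
        rw [Function.iterate_succ_apply', ih, map_mul, map_pow, hQ z hz, hfg, pow_succ', mul_assoc]
    have h1 : z ^ p = 1 := by
      have := hiter p
      rw [hf] at this
      exact (mul_eq_left.1 this.symm)
    have h2 : z ^ r = 1 := Q1_pow i0 hchar hz
    have h3 : z = 1 := by
      have h4 : orderOf z ∣ Nat.gcd p r := Nat.dvd_gcd (orderOf_dvd_of_pow_eq_one h1)
        (orderOf_dvd_of_pow_eq_one h2)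
      rw [hcop.gcd_eq_one] at h4
      exact orderOf_eq_one_iff.1 (Nat.dvd_one.1 h4)
    rw [hfg, h3, mul_one]
  -- `f g • [e] = g • [e]`
  have hpt : ∀ g : (Matrix.ProjectiveSpecialLinearGroup ι F), f g • pe i0 = g • (pe i0 : ℙ F (ι → F)) := by
    intro g
    by_cases hg : g • pe i0 = (pe i0 : ℙ F (ι → F))
    · rw [hP g hg]
    have hfg : ¬ f g • pe i0 = (pe i0 : ℙ F (ι → F)) := by
      intro h
      have h1 := f.injective (hP _ h)
      rw [h1] at h
      exact hg h
    -- lifts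
    obtain ⟨A, hA⟩ := QuotientGroup.mk_surjective g
    obtain ⟨B, hB⟩ := QuotientGroup.mk_surjective (f g)
    set v : ι → F := (A : Matrix ι ι F) *ᵥ ev i0 with hv
    set w : ι → F := (B : Matrix ι ι F) *ᵥ ev i0 with hw
    have hv0 : v ≠ 0 := mv_ne A (ev_ne i0)
    have hw0 : w ≠ 0 := mv_ne B (ev_ne i0)
    have hgv : g • pe i0 = Projectivization.mk F v hv0 := by rw [← hA, pe, smul_pt]
    have hgw : f g • pe i0 = Projectivization.mk F w hw0 := by rw [← hB, pe, smul_pt]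
    obtain ⟨j0, hj0, hvj⟩ := exists_coord i0 hv0 (by rw [← hgv]; exact hg)
    obtain ⟨j1, hj1, hwj⟩ := exists_coord i0 hw0 (by rw [← hgw]; exact hfg)
    obtain ⟨a, b, hab⟩ : ∃ a b : F, w = a • ev i0 + b • v := by
      refine span_of_fixed i0 hv0 hw0 hj0 hvj fun s hs => ?_
      rw [← hgw, ← mul_smul]
      have h1 : (g⁻¹ * s * g) • pe i0 = (pe i0 : ℙ F (ι → F)) := by
        have h2 : s • (g • pe i0) = g • (pe i0 : ℙ F (ι → F)) := by
          rw [hgv]; exact hs.2
        rw [mul_smul, mul_smul, h2, inv_smul_smul]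
      have h2 := hP _ h1
      rw [map_mul, map_mul, map_inv, hQ s hs.1] at h2
      have h3 : s * f g = f g * (g⁻¹ * s * g) := by rw [← h2]; group
      rw [h3, mul_smul, h1]
    have hb : b ≠ 0 := by
      rintro rfl
      rw [hab] at hwj
      simp [ev_other i0 hj1] at hwj
    -- `s ∈ Q1` with `f g • [e] = s • g • [e]`
    set φ : ι → F := (a / b) • ((v j0)⁻¹ • Pi.single j0 1) with hφ
    have hφ0 : φ i0 = 0 := by simp [hφ, hj0.symm]
    have hφv : φ ⬝ᵥ v = a / b := by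
      rw [hφ, smul_dotProduct, smul_dotProduct, single_one_dotProduct, smul_eq_mul, smul_eq_mul,
        inv_mul_cancel₀ hvj, mul_one]
    set s : (Matrix.ProjectiveSpecialLinearGroup ι F) := QuotientGroup.mk (tv i0 φ hφ0) with hs
    have hsQ : s ∈ Q1 i0 := tv_mem i0 φ hφ0
    have hsg : f g • pe i0 = s • g • (pe i0 : ℙ F (ι → F)) := by
      rw [hgv, hgw, hs, eq_comm, smul_pt_eq_iff]
      refine ⟨b⁻¹, ?_⟩
      rw [tv_mv, hφv, hab, smul_add, smul_smul, smul_smul, inv_mul_cancel₀ hb, one_smul, add_comm]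
      congr 2
      field_simp
    set ρ : (Matrix.ProjectiveSpecialLinearGroup ι F) := g⁻¹ * s⁻¹ * f g with hρ
    have hρe : ρ • pe i0 = (pe i0 : ℙ F (ι → F)) := by
      rw [hρ, mul_smul, hsg, mul_smul, inv_smul_smul, inv_smul_smul]
    have hfρ := hP ρ hρe
    have hfg' : f g = s * g * ρ := by rw [hρ]; group
    have hiter : ∀ k : ℕ, (f : (Matrix.ProjectiveSpecialLinearGroup ι F) → (Matrix.ProjectiveSpecialLinearGroup ι F))^[k] g = s ^ k * g * ρ ^ k := by
      intro k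
      induction k with
      | zero => simp
      | succ k ih =>
        rw [Function.iterate_succ_apply', ih, map_mul, map_mul, map_pow, map_pow, hQ s hsQ, hfρ,
          hfg', pow_succ, pow_succ']
        group
    have h1 : s ^ p • g • pe i0 = g • (pe i0 : ℙ F (ι → F)) := by
      have h2 := hiter p
      rw [hf] at h2
      have h3 : ∀ k : ℕ, ρ ^ k • pe i0 = (pe i0 : ℙ F (ι → F)) := by
        intro k
        induction k with
        | zero => simp
        | succ k ih => rw [pow_succ, mul_smul, hρe, ih]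
      conv_rhs => rw [h2]
      rw [mul_smul, h3, mul_smul]
    have h2 : s ^ r • g • pe i0 = g • (pe i0 : ℙ F (ι → F)) := by
      rw [Q1_pow i0 hchar hsQ, one_smul]
    have h3 : s ∈ MulAction.stabilizer (Matrix.ProjectiveSpecialLinearGroup ι F) (g • (pe i0 : ℙ F (ι → F))) := by
      have h4 : s ^ p ∈ MulAction.stabilizer (Matrix.ProjectiveSpecialLinearGroup ι F) (g • (pe i0 : ℙ F (ι → F))) := h1
      have h5 : s ^ r ∈ MulAction.stabilizer (Matrix.ProjectiveSpecialLinearGroup ι F) (g • (pe i0 : ℙ F (ι → F))) := h2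
      have h6 : s = (s ^ p) ^ (Nat.gcdA p r) * (s ^ r) ^ (Nat.gcdB p r) := by
        rw [← _root_.zpow_natCast, ← _root_.zpow_natCast, ← _root_.zpow_mul, ← _root_.zpow_mul, ← _root_.zpow_add,
          ← Nat.gcd_eq_gcd_ab, hcop.gcd_eq_one, Nat.cast_one, zpow_one]
      rw [h6]
      exact mul_mem (zpow_mem h4 _) (zpow_mem h5 _)
    rw [hsg]
    exact h3
  -- `f g` and `g` act in the same way
  have htr : ∀ x : ℙ F (ι → F), ∃ h : (Matrix.ProjectiveSpecialLinearGroup ι F), h • pe i0 = x := fun x =>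
    MulAction.exists_smul_eq _ _ _
  have hact : ∀ x : ℙ F (ι → F), f g • x = g • x := by
    intro x
    obtain ⟨h, rfl⟩ := htr x
    obtain ⟨h', rfl⟩ := f.surjective h
    have h1 := hpt (g * h')
    rw [map_mul, mul_smul] at h1
    rw [h1, mul_smul, hpt h']
  exact eq_of_smul_eq_smul (α := ℙ F (ι → F)) hact

end

end Vale.Agent.P240.H148
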