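import Vale.Agent.P240.H148.Two
import Vale.Agent.P240.H148.PSLb
import Vale.Agent.P240.H148.Defs

/-!
`FreeSub p r L` for `L ≅ PSL_n(F)`, `F` finite of characteristic `r ≠ p`, `n ≥ 3` or `|F| ≥ 4`.
-/

namespace Vale.Agent.P240.H148

open Subgroup Vale.Agent.P240.K

section
variable {G : Type*} [Group G] {p : ℕ}

theorem exists_unit {F : Type*} [Field F] [Finite F] (h : 4 ≤ Nat.card F) :
    ∃ t : F, t ≠ 0 ∧ t ^ 2 ≠ 1 := by
  classical
  by_contra hcon
  push Not at hcon
  have := Fintype.ofFinite F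
  have h1 : (Finset.univ : Finset F) ⊆ {0, 1, -1} := by
    intro t _
    by_cases ht : t = 0
    · simp [ht]
    · have h0 : (t - 1) * (t + 1) = 0 := by linear_combination hcon t ht
      rcases mul_eq_zero.1 h0 with h | h
      · simp [sub_eq_zero.1 h]
      · simp [eq_neg_of_add_eq_zero_left h]
  have h2 := Finset.card_le_card h1
  have h3 : ({0, 1, -1} : Finset F).card ≤ 3 := Finset.card_le_three
  rw [Finset.card_univ, ← Nat.card_eq_fintype_card] at h2
  omega

theorem freeSub_psl [hp : Fact p.Prime] {r : ℕ} [hr : Fact r.Prime] (hpr : p ≠ r)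
    {ι : Type*} [Fintype ι] [DecidableEq ι] (i0 : ι) {F : Type*} [Field F] [Finite F]
    (hchar : (r : F) = 0) (h4 : 3 ≤ Fintype.card ι ∨ 4 ≤ Nat.card F) (L : Subgroup G)
    (ε : L ≃* Matrix.ProjectiveSpecialLinearGroup ι F) : FreeSub p r L := by
  have hbig : (∃ t : F, t ≠ 0 ∧ t ^ 2 ≠ 1) ∨ ∀ i j : ι, ∃ k, k ≠ i ∧ k ≠ j := by
    rcases h4 with h4 | h4
    · refine Or.inr fun i j => ?_
      by_contra hcon
      push Not at hcon
      have h1 : (Finset.univ : Finset ι) ⊆ {i, j} := by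
        intro k _
        by_cases hk : k = i
        · simp [hk]
        · simp [hcon k hk]
      have h2 := Finset.card_le_card h1
      have h3 : ({i, j} : Finset ι).card ≤ 2 := Finset.card_le_two
      rw [Finset.card_univ] at h2
      omega
    · exact Or.inl (exists_unit h4)
  set Q : Subgroup (Matrix.ProjectiveSpecialLinearGroup ι F) := Q1 i0 with hQ
  set U : Subgroup G := (Q.comap ε.toMonoidHom).map L.subtype with hU
  have hUmem : ∀ s ∈ Q, ((ε.symm s : L) : G) ∈ U := fun s hs =>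
    ⟨ε.symm s, by
      change ε (ε.symm s) ∈ Q
      rwa [MulEquiv.apply_symm_apply], rfl⟩
  refine ⟨U, Subgroup.map_subtype_le _, ?_, fun E hE hEN hUE => ?_⟩
  · exact ((isPGroup_Q1 i0 hchar).comap_of_injective ε.toMonoidHom ε.injective).map _
  obtain ⟨_, hEcomm, hEpow⟩ := hE
  -- `E ∩ L = 1`
  have hEL : ∀ x ∈ E, x ∈ L → x = 1 := by
    set E' : Subgroup (Matrix.ProjectiveSpecialLinearGroup ι F) :=
      (E.subgroupOf L).map ε.toMonoidHom with hE'
    have hbot : E' = ⊥ := by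
      refine abelian_bot i0 hpr hchar hbig ?_ ?_ ?_
      · rintro _ ⟨x, hx, rfl⟩ _ ⟨y, hy, rfl⟩
        have h1 : x * y = y * x := Subtype.ext (hEcomm x hx y hy)
        rw [← map_mul, h1, map_mul]
      · refine IsPGroup.map (fun x => ⟨1, ?_⟩) _
        rw [pow_one]
        exact Subtype.ext (Subtype.ext (hEpow _ x.2))
      · rintro s hs _ ⟨x, hx, rfl⟩
        refine ⟨ε.symm s * x * (ε.symm s)⁻¹, ?_, by simp⟩
        have h1 := (mem_normalizer_iff.1 (hUE (hUmem s hs)) (x : G)).1 hx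
        exact h1
    intro x hx hxL
    have h1 : ε ⟨x, hxL⟩ ∈ E' := ⟨⟨x, hxL⟩, hx, rfl⟩
    rw [hbot, Subgroup.mem_bot] at h1
    have h2 : (⟨x, hxL⟩ : L) = 1 := ε.injective (by rw [h1, map_one])
    exact congrArg Subtype.val h2
  -- `[E, U] = 1`
  have hEU : ∀ x ∈ E, ∀ u ∈ U, x * u = u * x := by
    intro x hx u hu
    have huL : u ∈ L := Subgroup.map_subtype_le _ hu
    have h1 : x * u * x⁻¹ * u⁻¹ ∈ L :=
      mul_mem ((mem_normalizer_iff.1 (hEN hx) u).1 huL) (inv_mem huL)
    have h2 : x * u * x⁻¹ * u⁻¹ ∈ E := by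
      have : x * u * x⁻¹ * u⁻¹ = x * (u * x⁻¹ * u⁻¹) := by group
      rw [this]
      exact mul_mem hx ((mem_normalizer_iff.1 (hUE hu) x⁻¹).1 (inv_mem hx))
    have h3 := hEL _ h2 h1
    rwa [mul_inv_eq_one, mul_inv_eq_iff_eq_mul] at h3
  -- the automorphisms of `L` given by `x ∈ E`
  intro x hx
  have hxN := hEN hx
  let cx : L ≃* L :=
    { toFun := fun l => ⟨x * l * x⁻¹, (mem_normalizer_iff.1 hxN l).1 l.2⟩
      invFun := fun l => ⟨x⁻¹ * l * x, (mem_normalizer_iff.1 hxN _).2 (by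
        have : x * (x⁻¹ * l * x) * x⁻¹ = l := by group
        rw [this]; exact l.2)⟩
      left_inv := fun l => Subtype.ext (by
        change x⁻¹ * (x * l * x⁻¹) * x = l
        group)
      right_inv := fun l => Subtype.ext (by
        change x * (x⁻¹ * l * x) * x⁻¹ = l
        group)
      map_mul' := fun l m => Subtype.ext (by
        change x * (l * m) * x⁻¹ = x * l * x⁻¹ * (x * m * x⁻¹)
        group) }
  let f : Matrix.ProjectiveSpecialLinearGroup ι F ≃* Matrix.ProjectiveSpecialLinearGroup ι F :=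
    (ε.symm.trans cx).trans ε
  have hf : ∀ g, f g = ε (cx (ε.symm g)) := fun g => rfl
  have hiter : ∀ (k : ℕ) (l : L), ((cx : L → L)^[k] l : G) = x ^ k * l * (x ^ k)⁻¹ := by
    intro k l
    induction k with
    | zero => simp
    | succ k ih =>
      rw [Function.iterate_succ_apply']
      change x * ((cx : L → L)^[k] l : G) * x⁻¹ = _
      rw [ih, pow_succ']
      group
  have hfiter : ∀ (k : ℕ) g, (f : _ → _)^[k] g = ε ((cx : L → L)^[k] (ε.symm g)) := by
    intro k g
    induction k with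
    | zero => simp
    | succ k ih =>
      rw [Function.iterate_succ_apply', ih, hf, MulEquiv.symm_apply_apply,
        Function.iterate_succ_apply']
  have hone := aut_eq_one i0 hpr hchar f (fun g => by
    rw [hfiter]
    have h1 : (cx : L → L)^[p] (ε.symm g) = ε.symm g := Subtype.ext (by
      rw [hiter, hEpow x hx]
      group)
    rw [h1, MulEquiv.apply_symm_apply]) (fun s hs => by
    rw [hf]
    have h1 : cx (ε.symm s) = ε.symm s := Subtype.ext (by
      change x * ((ε.symm s : L) : G) * x⁻¹ = _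
      rw [hEU x hx _ (hUmem s hs)]
      group)
    rw [h1, MulEquiv.apply_symm_apply])
  rw [mem_centralizer_iff]
  intro l hl
  have h1 := hone (ε ⟨l, hl⟩)
  rw [hf, MulEquiv.symm_apply_apply] at h1
  have h2 : x * l * x⁻¹ = l := congrArg Subtype.val (ε.injective h1)
  rw [mul_inv_eq_iff_eq_mul] at h2
  exact h2.symm

theorem IsPSL.freeSub [hp : Fact p.Prime] {r : ℕ} (hr : r.Prime) (hpr : p ≠ r) {L : Subgroup G}
    (h : IsPSL r L) : FreeSub p r L := by
  obtain ⟨n, F, _, _, hn, h4, hc, ⟨ε⟩⟩ := h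
  have : Fact r.Prime := ⟨hr⟩
  exact freeSub_psl hpr (⟨0, by omega⟩ : Fin n) (CharP.cast_eq_zero F r)
    (by rwa [Fintype.card_fin]) L ε

end

universe u v

/-- All components are `PSL_n(F)`, in at most two characteristics. -/
theorem psl_main {𝕜 : Type v} [Field 𝕜] {G : Type u} [Group G] {p : ℕ} [hp : Fact p.Prime]
    [Finite G] (hO : OpTrivial p G)
    (hO' : ∀ N : Subgroup G, N.Normal → ¬ p ∣ Nat.card N → N = ⊥) {q l : ℕ} (hq : q.Prime)
    (hl : l.Prime) (hqp : q ≠ p) (hlp : l ≠ p) (hchar : (q : 𝕜) = 0)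
    (h : ∀ L ∈ Q.Comp G, IsPSL q L ∨ IsPSL l L) : HQ 𝕜 p G :=
  two_primes hO hO' hq hl hqp hchar fun L hL => (h L hL).imp
    (fun h => h.freeSub hq hqp.symm) fun h => Or.inl (h.freeSub hl hlp.symm)

end Vale.Agent.P240.H148
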