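import Vale.Agent.P240.V.T7
import Vale.Agent.P240.V.T8
import Vale.Agent.P240.H148.Free

/-!
Assembly: the `l`-adic criterion with the `FreeSub` alternative in terms of the definitions of
`V/QDefs.lean`, and the two-prime form.
-/

namespace Vale.Agent.P240.H148

open Subgroup Vale.Agent.P240.K

universe u v

variable {𝕜 : Type v} [Field 𝕜] {G : Type u} [Group G] {p : ℕ}

/-- Local conditions, or `l`-adic ones with the alternative `FreeSub p l`; the other components
are removable over `𝕜`. -/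
theorem criterion [hp : Fact p.Prime] [Finite G] (hO : OpTrivial p G)
    (hO' : ∀ N : Subgroup G, N.Normal → ¬ p ∣ Nat.card N → N = ⊥) (D : Set (Subgroup G))
    (S A X : Set G) (hD : D ⊆ Q.Comp G)
    (hc : ∀ L ∈ D, ∀ g : G, L.map (MulAut.conj g).toMonoidHom ∈ D)
    (hl : (∀ L ∈ D, Q.Local p S A X L) ∨
      ∃ l : ℕ, l.Prime ∧ ∀ L ∈ D, Q.Adic p l S L ∨ FreeSub p l L)
    (hT : ∀ L ∈ Q.Comp G, L ∈ D ∨ Removable 𝕜 p L) : HQ 𝕜 p G := by
  rcases hl with h | ⟨l, hl, h⟩
  · exact twin_main hO hO' D (S ∪ A) X hD hc (fun L hL => local_twin (h L hL)) hT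
  · exact adic_free_main hO hO' D S hD hc hl (fun L hL => (h L hL).imp_left adic_adic) hT

/-- Every component is `q`-free for the characteristic `q` of `𝕜`, or `l`-free, or has few outer
subgroups. -/
theorem two_primes [hp : Fact p.Prime] [Finite G] (hO : OpTrivial p G)
    (hO' : ∀ N : Subgroup G, N.Normal → ¬ p ∣ Nat.card N → N = ⊥) {q l : ℕ} (hq : q.Prime)
    (hl : l.Prime) (hqp : q ≠ p) (hchar : (q : 𝕜) = 0)
    (h : ∀ L ∈ Q.Comp G, FreeSub p q L ∨ FreeSub p l L ∨
      (FewOuter p L ∧ AlmostSimpleHQ 𝕜 p L)) : HQ 𝕜 p G := by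
  have hfam := comp_family hO hO'
  refine adic_free_main (l := l) hO hO' {L | L ∈ Comp G ∧ FreeSub p l L} ∅ (fun L hL => hL.1)
    (fun L hL g => ⟨hfam.conj L hL.1 g, freeSub_cj hL.2 g⟩) hl (fun L hL => Or.inr hL.2)
    fun L hL => ?_
  rcases h L hL with h | h | h
  · exact Or.inr (Or.inr ⟨q, hq, hqp, hchar, h⟩)
  · exact Or.inl ⟨hL, h⟩
  · exact Or.inr (Or.inl h)

end Vale.Agent.P240.H148
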